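import Vale.Agent.P032.S5.H196.Pair
import Vale.Agent.P032.S5.H585.Exc
import Vale.Agent.P032.Carr.LamX

/-!
# P032: the exceptional sets and the interface `LamX` without the hypothesis that no two harmless
points are at distance one

helper585's `Reg` and helper223's `agree_T`, `lamX_of` with `free` replaced by: adjacent points of
`Z` have different complementary pairs, and the palettes of the points of `Z` are minimal
sufficient.
-/

open Set Filter Topology Metric

noncomputable section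

namespace Vale.Agent.P032.Carr

open Vale.Agent.P032.S5 Vale.Agent.P032.Six

variable {U : Fin 6 → Set ℂ} {T : ℂ → Set (Fin 6)} {Z : Set ℂ} {f : ℂ → Set (Fin 6)}
  {c : ℂ} {R δ₀ : ℝ}

/-- the frame : no two points of `Z` at distance one have the same complementary pair, and the palettes
of the points of `Z` are minimal sufficient -/
structure RegN (U : Fin 6 → Set ℂ) (T : ℂ → Set (Fin 6)) (f : ℂ → Set (Fin 6)) (Z : Set ℂ) (c : ℂ)
    (R : ℝ) : Prop where
  irr : Irr U T
  zs : Zs T Z c R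
  hml : Hml T f (ball c (R + 1))
  nds : ∀ z ∈ Z, ∀ z' ∈ Z, dist z z' = 1 → T z \ f z ≠ T z' \ f z'
  min : ∀ z ∈ Z, ∀ s, s ⊆ T z → s ≠ T z → ¬ ∀ᶠ w in 𝓝 z, Suf U s w

namespace RegN

variable (G : RegN U T f Z c R)

include G

theorem harm {z : ℂ} (hz : z ∈ Z) : Harm T z (f z) :=
  G.hml.harmReg G.irr (G.zs.sub hz) (G.zs.four z hz)

/-- the palette of a point of `Z` is locally constant on `Z`, and so is `f` -/
theorem nhdZ {z : ℂ} (hz : z ∈ Z) : ∀ᶠ w in 𝓝 z, w ∈ Z → T w = T z ∧ f w = f z := by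
  filter_upwards [(G.harm hz).nhd G.irr] with w hw hwZ
  exact hw _ (G.harm hwZ)

/-- adjacent points of `Z` -/
theorem pairZ {x z : ℂ} (hx : x ∈ Z) (hz : z ∈ Z) (hd : dist z x = 1) (hC : T z \ f z ⊆ T x) :
    T z \ f z = f x :=
  ((G.harm hx).pair G.irr (G.harm hz) (by rw [dist_comm]; exact hd) (G.min x hx) hC).resolve_right
    (G.nds z hz x hx hd)

theorem le3 {x : ℂ} (hx : dist x c ≤ R) (hxZ : x ∉ Z) : (T x).ncard ≤ 3 := by
  by_contra hcon
  exact hxZ (G.zs.mem x (mem_closedBall.2 hx) (by omega))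

theorem near_notMem {x : ℂ} (hx : x ∉ Z) : ∀ᶠ y in 𝓝 x, y ∉ Z :=
  G.zs.compact.isClosed.isOpen_compl.mem_nhds hx

/-- **exceptional points, open part** -/
theorem exc {x : ℂ} (hx : dist x c ≤ R) {i j : Fin 6} (hE : x ∈ Ex T Z f i j) :
    ∀ᶠ y in 𝓝 x, i ∈ T y → j ∈ T y → T y = T x ∧ y ∈ Ex T Z f i j := by
  rcases hE with ⟨hxZ, hf⟩ | ⟨hxZ, hi, hj, z, hz, hzx, hC⟩
  · obtain ⟨p, hp, hpf⟩ := G.hml.h2 x (G.zs.sub hxZ) (G.zs.four x hxZ)
    filter_upwards [G.irr.no_layer hp, G.zs.opn x hxZ, G.nhdZ hxZ] with y h1 h2 h3 hi hj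
    have h4 : T p ⊆ T y := by
      rw [hpf, hf]
      exact insert_subset hi (singleton_subset_iff.2 hj)
    have hyZ := h2 (h1 h4)
    obtain ⟨h5, h6⟩ := h3 hyZ
    exact ⟨h5, Or.inl ⟨hyZ, h6.trans hf⟩⟩
  · have hxz : dist x z = 1 := by rw [dist_comm]; exact hzx
    filter_upwards [(G.harm hz).cd3 G.irr hxz (G.le3 hx hxZ)
      (by rw [hC]; exact insert_subset hi (singleton_subset_iff.2 hj)), G.near_notMem hxZ]
      with y h1 h2 hi' hj'
    obtain ⟨h3, h4⟩ := h1 (by rw [hC]; exact insert_subset hi' (singleton_subset_iff.2 hj'))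
    exact ⟨h4, Or.inr ⟨h2, hi', hj', z, hz, by rw [dist_comm]; exact h3, hC⟩⟩

/-- the exceptional set is closed -/
theorem ex_closed {x : ℂ} {i j : Fin 6} (hf : ∃ᶠ y in 𝓝 x, y ∈ Ex T Z f i j) :
    x ∈ Ex T Z f i j := by
  have hf' : (∃ᶠ y in 𝓝 x, y ∈ Z ∧ f y = {i, j}) ∨ (∃ᶠ y in 𝓝 x, y ∉ Z ∧ i ∈ T y ∧ j ∈ T y ∧
      ∃ z ∈ Z, dist z y = 1 ∧ T z \ f z = {i, j}) := frequently_or_distrib.1 hf
  rcases hf' with hf' | hf'
  · have hxZ : x ∈ Z := by
      by_contra hxZ
      obtain ⟨y, h1, h2⟩ := (hf'.and_eventually (G.near_notMem hxZ)).exists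
      exact h2 h1.1
    obtain ⟨y, h1, h2⟩ := (hf'.and_eventually (G.nhdZ hxZ)).exists
    exact Or.inl ⟨hxZ, (h2 h1.1).2.symm.trans h1.2⟩
  · obtain ⟨y, hy, hyP⟩ := exists_seq_forall_of_frequently hf'
    choose hyZ hi hj z hzZ hzy hC using hyP
    obtain ⟨z0, hz0, φ, hφ, hlim⟩ := G.zs.compact.tendsto_subseq hzZ
    have hylim : Tendsto (y ∘ φ) atTop (𝓝 x) := hy.comp hφ.tendsto_atTop
    have hd : dist z0 x = 1 := by
      have h1 : Tendsto (fun n => dist ((z ∘ φ) n) ((y ∘ φ) n)) atTop (𝓝 (dist z0 x)) :=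
        hlim.dist hylim
      have h2 : (fun n => dist ((z ∘ φ) n) ((y ∘ φ) n)) = fun _ => 1 := by
        funext n; exact hzy (φ n)
      rw [h2] at h1
      exact tendsto_nhds_unique h1 tendsto_const_nhds
    obtain ⟨n, hn⟩ := (hlim.eventually (G.nhdZ hz0)).exists
    obtain ⟨h5, h6⟩ := hn (hzZ (φ n))
    have h5 : T (z (φ n)) = T z0 := h5
    have h6 : f (z (φ n)) = f z0 := h6
    have hiv : i ∈ T x := (G.irr.closed i).mem_of_tendsto hy (Eventually.of_forall hi)
    have hjv : j ∈ T x := (G.irr.closed j).mem_of_tendsto hy (Eventually.of_forall hj)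
    have hC0 : T z0 \ f z0 = {i, j} := by rw [← hC (φ n), h5, h6]
    by_cases hxZ : x ∈ Z
    · refine Or.inl ⟨hxZ, ?_⟩
      rw [← hC0]
      exact (G.pairZ hxZ hz0 hd (by
        rw [hC0]
        exact insert_subset hiv (singleton_subset_iff.2 hjv))).symm
    · exact Or.inr ⟨hxZ, hiv, hjv, z0, hz0, hd, hC0⟩

/-- **exceptional points, closed part** -/
theorem exo {x : ℂ} {i j : Fin 6} (hE : x ∉ Ex T Z f i j) :
    ∀ᶠ y in 𝓝 x, y ∉ Ex T Z f i j := by
  by_contra hcon
  exact hE (G.ex_closed (not_eventually.1 hcon |>.mono fun y hy => not_not.1 hy))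

/-- an exceptional pair has two colours of the palette -/
theorem ex_ne {x : ℂ} {i j : Fin 6} (hE : x ∈ Ex T Z f i j) : i ≠ j := by
  rintro rfl
  rcases hE with ⟨hxZ, hf⟩ | ⟨-, -, -, z, hz, -, hC⟩
  · have := (G.harm hxZ).cardA
    rw [hf] at this
    simp at this
  · have := (G.harm hz).cardC
    rw [hC] at this
    simp at this

theorem ex_mem {x : ℂ} {i j : Fin 6} (hE : x ∈ Ex T Z f i j) : i ∈ T x ∧ j ∈ T x := by
  rcases hE with ⟨hxZ, hf⟩ | ⟨-, hi, hj, -⟩
  · have := (G.harm hxZ).sub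
    rw [hf] at this
    exact ⟨this (mem_insert _ _), this (mem_insert_of_mem _ rfl)⟩
  · exact ⟨hi, hj⟩

/-- at most one exceptional pair at a point with three colours -/
theorem one_pair {x : ℂ} (hx : dist x c ≤ R) (hxZ : x ∉ Z) {i j k : Fin 6} (hjk : j ≠ k)
    (hT : T x ⊆ {i, j, k}) (hij : x ∈ Ex T Z f i j) (hik : x ∈ Ex T Z f i k) : False := by
  obtain ⟨hi, hj⟩ := G.ex_mem hij
  rcases hij with ⟨h, -⟩ | ⟨-, -, -, z, hz, hzx, hC⟩
  · exact hxZ h
  rcases hik with ⟨h, -⟩ | ⟨-, -, hk, z', hz', hzx', hC'⟩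
  · exact hxZ h
  have hxz : dist x z = 1 := by rw [dist_comm]; exact hzx
  have hxz' : dist x z' = 1 := by rw [dist_comm]; exact hzx'
  have hne : z ≠ z' := by
    rintro rfl
    have h1 : j ∈ ({i, k} : Set (Fin 6)) := by
      rw [← hC', hC]; exact mem_insert_of_mem _ rfl
    have h2 : i ≠ j := by
      rintro rfl
      have := (G.harm hz).cardC
      rw [hC] at this
      simp at this
    rcases h1 with h1 | h1
    · exact h2 h1.symm
    · exact hjk h1
  have h3 := G.le3 hx hxZ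
  have e1 := (G.harm hz).cd3 G.irr hxz h3
    (by rw [hC]; exact insert_subset hi (singleton_subset_iff.2 hj))
  have e2 := (G.harm hz').cd3 G.irr hxz' h3
    (by rw [hC']; exact insert_subset hi (singleton_subset_iff.2 hk))
  have key : T x ⊆ {i} := by
    refine isolated G.irr hi ?_
    filter_upwards [e1, e2, G.irr.nhd x, two_circles hne hxz hxz'] with w h1 h2 h4 h5 hwx hiw
    intro m hm
    by_contra hmi
    have hmi : m ≠ i := hmi
    refine hwx (h5 ?_ ?_)
    · -- `T w = T x`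
      have h6 : T w = T x := by
        rcases hT (h4 hm) with h7 | h7 | h7
        · exact absurd h7 hmi
        · exact (h1 (by
            rw [hC, ← h7]
            exact insert_subset hiw (singleton_subset_iff.2 hm))).2
        · have h7 : m = k := h7
          exact (h2 (by
            rw [hC', ← h7]
            exact insert_subset hiw (singleton_subset_iff.2 hm))).2
      exact (h1 (by
        rw [hC, h6]
        exact insert_subset hi (singleton_subset_iff.2 hj))).1
    · have h6 : T w = T x := by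
        rcases hT (h4 hm) with h7 | h7 | h7
        · exact absurd h7 hmi
        · exact (h1 (by
            rw [hC, ← h7]
            exact insert_subset hiw (singleton_subset_iff.2 hm))).2
        · have h7 : m = k := h7
          exact (h2 (by
            rw [hC', ← h7]
            exact insert_subset hiw (singleton_subset_iff.2 hm))).2
      exact (h2 (by
        rw [hC', h6]
        exact insert_subset hi (singleton_subset_iff.2 hk))).1
  have h7 : j = i := key hj
  have h8 : k = i := key hk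
  exact hjk (h7.trans h8.symm)

/-- faces at a point of `Z` -/
theorem face_four {x : ℂ} (hx : x ∈ Z) {a b c' d : Fin 6} (hab : a ≠ b) (hac : a ≠ c')
    (had : a ≠ d) (hbc : b ≠ c') (hbd : b ≠ d) (hcd : c' ≠ d) (hT : T x = {a, b, c', d})
    (hf : f x = {a, b}) : FaceT T x {a, c', d} := by
  refine ⟨?_, ?_, ?_⟩
  · rw [Set.ncard_eq_three]
    exact ⟨a, c', d, hac, had, hcd, rfl⟩
  · rw [hT]
    intro m hm
    simp only [mem_insert_iff, mem_singleton_iff] at hm ⊢
    tauto
  · intro y hy hsub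
    have h1 := (G.harm hx).h1 y hy (hsub.trans (by
      rw [hT]
      intro m hm
      simp only [mem_insert_iff, mem_singleton_iff] at hm ⊢
      tauto))
    have h2 : b ∈ ({a, c', d} : Set (Fin 6)) := hsub (h1 (by rw [hf]; simp))
    simp only [mem_insert_iff, mem_singleton_iff] at h2
    rcases h2 with h2 | h2 | h2
    · exact hab h2.symm
    · exact hbc h2
    · exact hbd h2

/-- **the list of palettes** -/
theorem palE {x : ℂ} (hx : dist x c ≤ R) :
    (T x).ncard ≤ 2 ∨ (FaceT T x (T x) ∧ ∀ i ∈ T x, ∀ j ∈ T x, x ∉ Ex T Z f i j) ∨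
    (∃ i j k, i ≠ j ∧ i ≠ k ∧ j ≠ k ∧ T x = {i, j, k} ∧ x ∈ Ex T Z f i j ∧ x ∉ Ex T Z f i k ∧
      x ∉ Ex T Z f j k) ∨
    (∃ a b c' d, a ≠ b ∧ a ≠ c' ∧ a ≠ d ∧ b ≠ c' ∧ b ≠ d ∧ c' ≠ d ∧ T x = {a, b, c', d} ∧
      x ∈ Ex T Z f a b ∧
      (FaceT T x {a, c', d} ∧ ∀ i ∈ ({a, c', d} : Set (Fin 6)), ∀ j ∈ ({a, c', d} : Set (Fin 6)),
        x ∉ Ex T Z f i j) ∧
      (FaceT T x {b, c', d} ∧ ∀ i ∈ ({b, c', d} : Set (Fin 6)), ∀ j ∈ ({b, c', d} : Set (Fin 6)),
        x ∉ Ex T Z f i j)) := by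
  by_cases hxZ : x ∈ Z
  · right; right; right
    have hH := G.harm hxZ
    obtain ⟨a, b, hab, hfab⟩ := Set.ncard_eq_two.1 hH.cardA
    obtain ⟨c', d, hcd, hCcd⟩ := Set.ncard_eq_two.1 hH.cardC
    have hc : c' ∈ T x ∧ c' ∉ f x := by
      have : c' ∈ T x \ f x := by rw [hCcd]; simp
      exact this
    have hd : d ∈ T x ∧ d ∉ f x := by
      have : d ∈ T x \ f x := by rw [hCcd]; simp
      exact this
    rw [hfab] at hc hd
    simp only [mem_insert_iff, mem_singleton_iff, not_or] at hc hd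
    have hT : T x = {a, b, c', d} := by
      have h1 : T x = f x ∪ (T x \ f x) := (union_sdiff_cancel hH.sub).symm
      have h2 : T x = {a, b} ∪ {c', d} := by
        rw [hCcd, hfab] at h1
        exact h1
      rw [h2]
      ext m
      simp only [mem_union, mem_insert_iff, mem_singleton_iff]
      tauto
    have hT' : T x = {b, a, c', d} := by
      rw [hT]
      ext m
      simp only [mem_insert_iff, mem_singleton_iff]
      tauto
    have hno : ∀ e g : Fin 6, ({e, g} : Set (Fin 6)) ≠ {a, b} → x ∉ Ex T Z f e g := by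
      intro e g heg hE
      rcases hE with ⟨-, h1⟩ | ⟨h1, -⟩
      · exact heg (h1.symm.trans hfab)
      · exact h1 hxZ
    refine ⟨a, b, c', d, hab, fun h => hc.2.1 h.symm, fun h => hd.2.1 h.symm,
      fun h => hc.2.2 h.symm, fun h => hd.2.2 h.symm, hcd, hT, Or.inl ⟨hxZ, hfab⟩, ⟨?_, ?_⟩, ⟨?_, ?_⟩⟩
    · exact G.face_four hxZ hab (fun h => hc.2.1 h.symm) (fun h => hd.2.1 h.symm)
        (fun h => hc.2.2 h.symm) (fun h => hd.2.2 h.symm) hcd hT hfab
    · intro e he g hg
      refine hno e g fun h => ?_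
      have hb : b ∈ ({e, g} : Set (Fin 6)) := by rw [h]; simp
      simp only [mem_insert_iff, mem_singleton_iff] at he hg hb
      have hbn : ∀ m, (m = a ∨ m = c' ∨ m = d) → b ≠ m := by
        rintro m (rfl | rfl | rfl)
        · exact hab.symm
        · exact fun h => hc.2.2 h.symm
        · exact fun h => hd.2.2 h.symm
      rcases hb with hb | hb
      · exact hbn e he hb
      · exact hbn g hg hb
    · exact G.face_four hxZ hab.symm (fun h => hc.2.2 h.symm) (fun h => hd.2.2 h.symm)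
        (fun h => hc.2.1 h.symm) (fun h => hd.2.1 h.symm) hcd hT' (by rw [hfab, Set.pair_comm])
    · intro e he g hg
      refine hno e g fun h => ?_
      have ha : a ∈ ({e, g} : Set (Fin 6)) := by rw [h]; simp
      simp only [mem_insert_iff, mem_singleton_iff] at he hg ha
      have han : ∀ m, (m = b ∨ m = c' ∨ m = d) → a ≠ m := by
        rintro m (rfl | rfl | rfl)
        · exact hab
        · exact fun h => hc.2.1 h.symm
        · exact fun h => hd.2.1 h.symm
      rcases ha with ha | ha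
      · exact han e he ha
      · exact han g hg ha
  · have h3 := G.le3 hx hxZ
    by_cases h2 : (T x).ncard ≤ 2
    · exact Or.inl h2
    have h3' : (T x).ncard = 3 := by omega
    by_cases hno : ∀ i ∈ T x, ∀ j ∈ T x, x ∉ Ex T Z f i j
    · exact Or.inr (Or.inl ⟨⟨h3', Subset.rfl, fun y hy => G.irr.not_sub hy h3⟩, hno⟩)
    right; right; left
    push Not at hno
    obtain ⟨i, hi, j, hj, hE⟩ := hno
    have hij := G.ex_ne hE
    -- the third colour
    have hk : ∃ k ∈ T x, k ≠ i ∧ k ≠ j := by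
      by_contra hcon
      push Not at hcon
      have h5 : T x ⊆ {i, j} := by
        intro m hm
        by_cases hmi : m = i
        · exact Or.inl hmi
        · exact Or.inr (hcon m hm hmi)
      have h6 := Set.ncard_le_ncard h5 (Set.toFinite _)
      rw [Set.ncard_pair hij] at h6
      omega
    obtain ⟨k, hk, hki, hkj⟩ := hk
    have hT : T x = {i, j, k} := by
      refine (Set.eq_of_subset_of_ncard_le ?_ ?_ (Set.toFinite _)).symm
      · exact insert_subset hi (insert_subset hj (singleton_subset_iff.2 hk))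
      · rw [h3', Set.ncard_eq_three.2 ⟨i, j, k, hij, hki.symm, hkj.symm, rfl⟩]
    refine ⟨i, j, k, hij, hki.symm, hkj.symm, hT, hE, fun hE' => ?_, fun hE' => ?_⟩
    · exact G.one_pair hx hxZ hkj.symm hT.subset hE hE'
    · refine G.one_pair hx hxZ (i := j) (j := i) (k := k) hki.symm (hT.subset.trans ?_)
        (by rw [Ex_symm]; exact hE) hE'
      intro m hm
      simp only [mem_insert_iff, mem_singleton_iff] at hm ⊢
      tauto

/-- an apex off `A` for the exceptional points of the circle -/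
theorem apex_off {x : ℂ} {A : Set (Fin 6)} (hA : A ⊆ T x)
    (hE : ∀ i ∈ A, ∀ j ∈ A, i ≠ j → x ∉ Ex T Z f i j) {z : ℂ} (hz : z ∈ Z) (hzx : dist z x = 1) :
    ∃ i, i ∈ T z ∧ i ∉ f z ∧ i ∉ A := by
  by_cases hxZ : x ∈ Z
  · by_contra hcon
    push Not at hcon
    have h1 : T z \ f z ⊆ A := fun i hi => hcon i hi.1 hi.2
    obtain ⟨i, j, hij, he⟩ := Set.ncard_eq_two.1 (G.harm hz).cardC
    have h2 := G.pairZ hxZ hz hzx (h1.trans hA)
    refine hE i (h1 (by rw [he]; simp)) j (h1 (by rw [he]; simp)) hij (Or.inl ⟨hxZ, ?_⟩)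
    rw [← h2, he]
  · exact Carr.apex_off G.zs G.hml hxZ hA hE hz hzx

/-- **Agreement** off the exceptional sets -/
theorem agree_T (H : Hm T Z f δ₀) {x : ℂ} (hx : dist x c ≤ R - 1)
    {a b : Fin 6} (ha : a ∈ T x) (hb : b ∈ T x) (hE : x ∉ Ex T Z f a b) (d : Fin 6) :
    lamT T Z f δ₀ a x b d = lamT T Z f δ₀ b x a d := by
  rcases eq_or_ne a b with rfl | hab
  · rfl
  refine H.agree_T (G.zs.rg hx) (fun y hy => ?_) (fun z hz hzx => ?_) d
  · by_contra hcon
    push Not at hcon
    have hsub : T y ⊆ {a, b} := fun i hi => by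
      by_cases hia : i = a
      · exact Or.inl hia
      · exact Or.inr (hcon i hi hia)
    have hsub' : T y ⊆ T x := hsub.trans (by rintro i (rfl | rfl); exacts [ha, hb])
    by_cases hxZ : x ∈ Z
    · have h1 := G.hml.h1 x (G.zs.sub hxZ) (G.zs.four x hxZ) y hy hsub'
      refine hE (Or.inl ⟨hxZ, Set.eq_of_subset_of_ncard_le (h1.trans hsub) ?_ (Set.toFinite _)⟩)
      rw [G.hml.two x (G.zs.sub hxZ) (G.zs.four x hxZ), Set.ncard_pair hab]
    · refine G.irr.not_sub hy ?_ hsub'
      exact G.le3 (by linarith) hxZ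
  · refine G.apex_off (A := {a, b}) (by rintro i (rfl | rfl); exacts [ha, hb]) ?_ hz hzx
    rintro i (rfl | rfl) j (rfl | rfl) hij
    · exact absurd rfl hij
    · exact hE
    · rw [Ex_symm]; exact hE
    · exact absurd rfl hij

/-- **The interface.** -/
theorem lamX_of (H : Hm T Z f δ₀) {B : Set ℂ}
    (hB : ∀ x ∈ B, dist x c ≤ R - 1)
    (hcomp : ∀ x ∈ B, ∀ s : Set (Fin 6), S5.Face T x s → ∀ u, dist u x ≤ 1 → ¬ S5.Face T u sᶜ)
    (hlens : ∀ x ∈ B, ∀ S : Set (Fin 6), ∀ t b c, t ≠ b → t ≠ c → b ≠ c →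
      Base T (Ex T Z f) x S → ({t, b, c} : Set (Fin 6)) ≠ S → ({t, b, c} : Set (Fin 6))ᶜ ≠ S →
      ({t, b, c} : Set (Fin 6)) ∩ S = {t} → ∀ u u', S5.Face T u {t, b, c} →
      S5.Face T u' ({t, b, c} : Set (Fin 6))ᶜ → dist u x = 1 → dist u' x = 1 → dist u u' = 2 →
      (¬ ∀ᶠ w in 𝓝[closedBall x 1 \ {u}] u, t ∉ T w) → lamT T Z f δ₀ t x b c = 0)
    (hring : ∀ x ∈ B, ∀ a b c d e g : Fin 6, [a, b, c, d, e, g].Nodup →
      Base T (Ex T Z f) x {a, b, c} →
      ∀ᶠ δ in 𝓝[>] (0 : ℝ), ∀ᶠ j : ℕ in atTop, ∀ h : ℕ → Fin 6, h (6 * 2 ^ j) = h 0 →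
      (∀ k ≤ 6 * 2 ^ j, h k ∈ apx T Z δ (hp T f {a, b, c}) (pt x j (2 ^ j) k) ∧
        h k ∉ ({a, b, c} : Set (Fin 6))) →
        ∑ k ∈ Finset.range (6 * 2 ^ j), eps (h k) (h (k + 1)) {d, e} = 1) :
    LamX T (Ex T Z f) B (lamT T Z f δ₀) := by
  refine ⟨fun a x b c => lamT_symm a x b c, fun a x b => lamT_diag a x b,
    fun a x b => lamT_self a x b, fun a x hx ha => ?_, fun a x hx ha b hb => ?_,
    fun x hx a ha b hb hab hE d => ?_, fun x hx a ha b d hab had hbd hne => ?_, hlens,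
    fun x hx a b g hab hag hbg hbase d e hde hd he => ?_⟩
  · filter_upwards [mem_nhdsWithin_of_mem_nhds (H.loc_T (G.zs.rg (hB x hx)) (av_T G.irr ha)),
      self_mem_nhdsWithin] with x' h1 h2
    exact h1 (av_T G.irr h2)
  · exact H.euler_T (G.zs.rg (hB x hx)) (av_T G.irr ha) hb
  · exact G.agree_T H (hB x hx) ha hb hE d
  · obtain ⟨u, hu, hF, hev⟩ := H.supp_T (G.zs.rg (hB x hx)) (av_T G.irr ha) hne
    refine ⟨u, hu, (face_iff G.irr G.zs G.hml ?_ ?_).1 hF, hev⟩
    · have h1 := mem_closedBall.1 hu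
      have h2 := hB x hx
      have := dist_triangle u x c
      linarith
    · exact Set.ncard_eq_three.2 ⟨a, b, d, hab, had, hbd, rfl⟩
  · have hd' := hd
    have he' := he
    simp only [Set.mem_insert_iff, Set.mem_singleton_iff, not_or] at hd' he'
    obtain ⟨k, hk⟩ : ∃ k, [a, b, g, d, e, k].Nodup := by
      apply exists_fourth
      simp only [List.nodup_cons, List.mem_cons, List.not_mem_nil, or_false, not_or,
        List.nodup_nil, and_true, not_false_eq_true]
      tauto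
    have hxc := hB x hx
    have hcc : ({a, b, g} : Set (Fin 6))ᶜ = {d, e, k} := by
      have h1 : ({a, b, g, d, e, k} : Finset (Fin 6)) = Finset.univ := by
        apply Finset.eq_univ_of_card
        have := List.toFinset_card_of_nodup hk
        simpa using this
      ext i
      have hi : i ∈ ({a, b, g, d, e, k} : Finset (Fin 6)) := by rw [h1]; simp
      simp only [List.nodup_cons, List.mem_cons, List.not_mem_nil, or_false, not_or] at hk
      simp only [Finset.mem_insert, Finset.mem_singleton] at hi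
      simp only [Set.mem_compl_iff, Set.mem_insert_iff, Set.mem_singleton_iff, not_or]
      rcases hi with rfl | rfl | rfl | rfl | rfl | rfl <;> tauto
    refine H.wind_T (G.zs.rg hxc) hk (fun y hy => ?_) (fun z hz hzx => ?_) (fun u hu hF => ?_)
      (hring x hx a b g d e k hk hbase)
    · by_contra hcon
      push Not at hcon
      exact hbase.1.2.2 y hy fun i hi => hcon i hi
    · refine G.apex_off hbase.1.2.1 (fun i hi j hj hij => ?_) hz hzx
      exact hbase.2 i hi j hj hij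
    · have hu' := mem_closedBall.1 hu
      refine hcomp x hx _ hbase.1 u hu' ?_
      rw [hcc]
      refine (face_iff G.irr G.zs G.hml ?_ ?_).1 hF
      · have := dist_triangle u x c
        linarith
      · refine Set.ncard_eq_three.2 ⟨d, e, k, ?_, ?_, ?_, rfl⟩ <;>
        · simp only [List.nodup_cons, List.mem_cons, List.not_mem_nil, or_false, not_or] at hk
          tauto

end RegN

end Vale.Agent.P032.Carr
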